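import Vale.Agent.P286EX.Hit
import Vale.Agent.P286E67.Hn

/-!
# The complex `O ⊗ M` and the base change along `A → A ⊗ O`
-/

set_option linter.all false

namespace Vale.Agent.P286EX

open CategoryTheory Matrix TensorProduct Vale.Agent.P286 Vale.Agent.P286.St Vale.Agent.P286.H847
  Vale.Agent.P286E Vale.Agent.P286EG

noncomputable section

namespace Lev

section OG

variable (O : Type) [AddCommGroup O] [Module ℂ O]

/-- The complex `O ⊗ M`. -/
abbrev oG (M : GD) : GD where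
  V := O ⊗[ℂ] M.V
  d := M.d.lTensor O
  dd x := by
    rw [← LinearMap.lTensor_comp_apply, show M.d ∘ₗ M.d = 0 from LinearMap.ext M.dd,
      LinearMap.lTensor_zero, LinearMap.zero_apply]
  gr m := LinearMap.range ((M.gr m).subtype.lTensor O)
  dgr m x hx := by
    obtain ⟨x, rfl⟩ := hx
    refine ⟨(M.d.restrict (M.dgr m)).lTensor O x, ?_⟩
    rw [← LinearMap.lTensor_comp_apply, ← LinearMap.lTensor_comp_apply]
    rfl

variable {O} {M M' : GD}

theorem oG_mem {m : ℤ} (o : O) {x : M.V} (hx : x ∈ M.gr m) : o ⊗ₜ[ℂ] x ∈ (oG O M).gr m :=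
  ⟨o ⊗ₜ ⟨x, hx⟩, rfl⟩

theorem oG_ind {m : ℤ} {p : O ⊗[ℂ] M.V → Prop} {x : O ⊗[ℂ] M.V} (hx : x ∈ (oG O M).gr m)
    (h0 : p 0) (h1 : ∀ o x, x ∈ M.gr m → p (o ⊗ₜ x)) (h2 : ∀ x y, p x → p y → p (x + y)) :
    p x := by
  obtain ⟨x, rfl⟩ := hx
  induction x using TensorProduct.induction_on with
  | zero => rwa [map_zero]
  | tmul o x => exact h1 o x.1 x.2
  | add x y hx hy => rw [map_add]; exact h2 _ _ hx hy

/-- The map `o ⊗ x ↦ φ o • x`. -/
def hr (φ : O →ₗ[ℂ] ℂ) (M : GD) : GD.Hom (oG O M) M where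
  f := (TensorProduct.lid ℂ M.V).toLinearMap ∘ₗ φ.rTensor M.V
  comm x := by
    induction x using TensorProduct.induction_on with
    | zero => simp only [map_zero]
    | tmul o x => exact (map_smul M.d (φ o) x).symm
    | add x y hx hy => simp only [map_add, hx, hy]
  deg m x hx := oG_ind (p := fun x => ((TensorProduct.lid ℂ M.V).toLinearMap ∘ₗ φ.rTensor M.V) x ∈
      M.gr m) hx (by rw [map_zero]; exact zero_mem _) (fun o x h => Submodule.smul_mem _ (φ o) h)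
    fun x y h h' => by rw [map_add]; exact add_mem h h'

theorem hr_tmul (φ : O →ₗ[ℂ] ℂ) (o : O) (x : M.V) : (hr φ M).f (o ⊗ₜ x) = φ o • x := rfl

/-- The map `x ↦ o ⊗ x`. -/
def j0 (o : O) (M : GD) : GD.Hom M (oG O M) :=
  ⟨TensorProduct.mk ℂ O M.V o, fun _ => rfl, fun _ _ h => oG_mem o h⟩

theorem j0_apply (o : O) (x : M.V) : (j0 o M).f x = o ⊗ₜ x := rfl

/-- An operator on the first factor. -/
def lo (φ : O →ₗ[ℂ] O) (M : GD) : GD.Hom (oG O M) (oG O M) where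
  f := φ.rTensor M.V
  comm x := by
    induction x using TensorProduct.induction_on with
    | zero => simp only [map_zero]
    | tmul o x => rfl
    | add x y hx hy => simp only [map_add, hx, hy]
  deg m x hx := oG_ind (p := fun x => φ.rTensor M.V x ∈ (oG O M).gr m) hx
    (by rw [map_zero]; exact zero_mem _) (fun o x h => oG_mem (φ o) h)
    fun x y h h' => by rw [map_add]; exact add_mem h h'

theorem lo_tmul (φ : O →ₗ[ℂ] O) (o : O) (x : M.V) : (lo φ M).f (o ⊗ₜ x) = φ o ⊗ₜ x := rfl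

theorem cy_lift {q : ℤ} {ζ : O ⊗[ℂ] M.V} (h : Cy (oG O M) q ζ) :
    ∃ ξ : O ⊗[ℂ] Zn M q, (Zn M q).subtype.lTensor O ξ = ζ := by
  obtain ⟨⟨ζ, rfl⟩, hd⟩ := h
  let iZ : Zn M q →ₗ[ℂ] M.gr q := Submodule.inclusion inf_le_left
  have ex : Function.Exact iZ (M.d ∘ₗ (M.gr q).subtype) := fun x =>
    ⟨fun hx => ⟨⟨x.1, x.2, hx⟩, rfl⟩, by
      rintro ⟨z, rfl⟩
      exact z.2.2⟩
  obtain ⟨ξ, rfl⟩ := (Module.Flat.lTensor_exact O ex ζ).1 (by
    rw [LinearMap.lTensor_comp_apply]; exact hd)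
  exact ⟨ξ, by rw [← LinearMap.lTensor_comp_apply]; rfl⟩

theorem bd_of_pr {q : ℤ} {ξ : O ⊗[ℂ] Zn M q} (h : (Hn.pr M q).lTensor O ξ = 0) :
    Bd (oG O M) q ((Zn M q).subtype.lTensor O ξ) := by
  have ex : Function.Exact (dZ M q) (Hn.pr M q) := LinearMap.exact_map_mkQ_range (dZ M q)
  obtain ⟨y, rfl⟩ := (Module.Flat.lTensor_exact O ex ξ).1 h
  refine ⟨(M.gr (q - 1)).subtype.lTensor O y, ⟨y, rfl⟩, ?_⟩
  change M.d.lTensor O _ = _
  rw [← LinearMap.lTensor_comp_apply, ← LinearMap.lTensor_comp_apply]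
  rfl

end OG

section Kap

variable {A O : Type} [CommRing A] [Algebra ℂ A] [CommRing O] [Algebra ℂ O] {M : AG A}
  {N : AG (A ⊗[ℂ] O)}

/-- The map `o ⊗ x ↦ (1 ⊗ o) t x`. -/
def kap0 (hN : Kun.Cs N) (t : GD.Hom M.G N.G) : GD.Hom (oG O M.G) N.G where
  f := Kun.ps hN (fun b => N.fn b) (fun b b' => LinearMap.congr_fun (map_add N.fn b b')) hN.smul t.f
  comm x := by
    induction x using TensorProduct.induction_on with
    | zero => simp only [map_zero]
    | tmul o x => exact (congrArg (N.fn (1 ⊗ₜ o)) (t.comm x)).trans (N.d _ _).symm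
    | add x y hx hy => simp only [map_add, hx, hy]
  deg m x hx := oG_ind (p := fun x => Kun.ps hN (fun b => N.fn b)
      (fun b b' => LinearMap.congr_fun (map_add N.fn b b')) hN.smul t.f x ∈ N.G.gr m) hx
    (by rw [map_zero]; exact zero_mem _) (fun o x h => N.gr (1 ⊗ₜ o) m _ (t.deg m x h))
    fun x y h h' => by rw [map_add]; exact add_mem h h'

theorem kap0_tmul (hN : Kun.Cs N) (t : GD.Hom M.G N.G) (o : O) (x : M.G.V) :
    (kap0 hN t).f (o ⊗ₜ x) = N.fn (1 ⊗ₜ o) (t.f x) := rfl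

theorem kap0_one (hN : Kun.Cs N) (t : GD.Hom M.G N.G) (x : M.G.V) :
    (kap0 hN t).f ((1 : O) ⊗ₜ x) = t.f x := LinearMap.congr_fun (map_one N.fn) (t.f x)

theorem kap0_mul (hN : Kun.Cs N) (t : GD.Hom M.G N.G) (o : O) (x : O ⊗[ℂ] M.G.V) :
    (kap0 hN t).f ((lo (LinearMap.mulLeft ℂ o) M.G).f x) = N.fn (1 ⊗ₜ o) ((kap0 hN t).f x) := by
  induction x using TensorProduct.induction_on with
  | zero => simp only [map_zero]
  | tmul o' x =>
    change N.fn (1 ⊗ₜ (o * o')) (t.f x) = N.fn (1 ⊗ₜ o) (N.fn (1 ⊗ₜ o') (t.f x))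
    rw [← Module.End.mul_apply, ← map_mul, Algebra.TensorProduct.tmul_mul_tmul, one_mul]
  | add x y hx hy => simp only [map_add, hx, hy]

theorem kap0_pr (hN : Kun.Cs N) (t : GD.Hom M.G N.G) {q : ℤ} (ξ : O ⊗[ℂ] Zn M.G q) :
    ∃ z : Zn N.G q, z.1 = (kap0 hN t).f ((Zn M.G q).subtype.lTensor O ξ) ∧
      kun hN t q ((Hn.pr _ q).lTensor O ξ) = Hn.pr _ q z := by
  induction ξ using TensorProduct.induction_on with
  | zero => exact ⟨0, by rw [map_zero, map_zero]; rfl, by rw [map_zero, map_zero, map_zero]⟩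
  | add x y hx hy =>
    obtain ⟨z, h3, h4⟩ := hx
    obtain ⟨z', h3', h4'⟩ := hy
    exact ⟨z + z', by rw [map_add, map_add, ← h3, ← h3']; rfl,
      by rw [map_add, map_add, h4, h4', map_add]⟩
  | tmul o x => exact ⟨Hn.zmap (fnG N (1 ⊗ₜ o)) q (Hn.zmap t q x), rfl, rfl⟩

/-- **Base change along `A → A ⊗ O`**, on the complexes. -/
theorem kap0_qis (hM : Kun.Cs M) (hN : Kun.Cs N) {t : GD.Hom M.G N.G}
    (h : DB (Kun.iL A O) M N t) : GD.Qis (kap0 hN t) := by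
  refine qis_mk (fun q ζ hc hb => ?_) fun q z hz => ?_
  · obtain ⟨ξ, rfl⟩ := cy_lift hc
    obtain ⟨z, h1, h2⟩ := kap0_pr hN t ξ
    refine bd_of_pr ((injective_iff_map_eq_zero _).1 (kun_bij hM hN h q).1 _ (h2.trans ?_))
    exact Hn.pr_eq_zero.2 (hb.of_eq h1.symm)
  · obtain ⟨ω, hω⟩ := (kun_bij hM hN h q).2 (Hn.pr _ q ⟨z, hz.1, hz.2⟩)
    obtain ⟨ξ, rfl⟩ := LinearMap.lTensor_surjective O (Hn.pr_surj (M := M.G) (q := q)) ω
    obtain ⟨z', h1, h2⟩ := kap0_pr hN t ξ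
    let iZ : Zn M.G q →ₗ[ℂ] M.G.gr q := Submodule.inclusion inf_le_left
    refine ⟨(Zn M.G q).subtype.lTensor O ξ, ⟨⟨iZ.lTensor O ξ, ?_⟩, ?_⟩, ?_⟩
    · rw [← LinearMap.lTensor_comp_apply]; rfl
    · change M.G.d.lTensor O _ = 0
      rw [← LinearMap.lTensor_comp_apply, show M.G.d ∘ₗ (Zn M.G q).subtype = 0 from
        LinearMap.ext fun x => x.2.2, LinearMap.lTensor_zero, LinearMap.zero_apply]
    · rw [← h1]
      exact Hn.pr_eq.1 (hω.symm.trans h2)

/-- The action of `A ⊗ O` on `O ⊗ M`. -/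
def tfn (hM : Kun.Cs M) (O : Type) [CommRing O] [Algebra ℂ O] :
    A ⊗[ℂ] O →ₐ[ℂ] Module.End ℂ (O ⊗[ℂ] M.G.V) :=
  Algebra.TensorProduct.lift
    ((Module.End.lTensorAlgHom ℂ M.G.V O).comp ⟨M.fn, fun c => LinearMap.ext (hM c)⟩)
    ((Module.End.rTensorAlgHom ℂ O M.G.V).comp (Algebra.lmul ℂ O))
    fun _ _ => TensorProduct.ext' fun _ _ => rfl

theorem tfn_tmul (hM : Kun.Cs M) (a : A) (o o' : O) (x : M.G.V) :
    tfn hM O (a ⊗ₜ o) (o' ⊗ₜ x) = (o * o') ⊗ₜ M.fn a x := rfl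

theorem tfn_ind {p : A ⊗[ℂ] O → O ⊗[ℂ] M.G.V → Prop} (h0 : ∀ x, p 0 x) (h0' : ∀ b, p b 0)
    (h1 : ∀ a o o' x, p (a ⊗ₜ o) (o' ⊗ₜ x)) (h2 : ∀ b b' x, p b x → p b' x → p (b + b') x)
    (h2' : ∀ b x x', p b x → p b x' → p b (x + x')) (b : A ⊗[ℂ] O) (x : O ⊗[ℂ] M.G.V) : p b x := by
  induction b using TensorProduct.induction_on with
  | zero => exact h0 x
  | add b b' h h' => exact h2 _ _ _ h h'
  | tmul a o =>
    induction x using TensorProduct.induction_on with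
    | zero => exact h0' _
    | add x x' h h' => exact h2' _ _ _ h h'
    | tmul o' x => exact h1 _ _ _ _

/-- The complex `O ⊗ M` as a complex of modules over `A ⊗ O`. -/
abbrev tAG (hM : Kun.Cs M) (O : Type) [CommRing O] [Algebra ℂ O] : AG (A ⊗[ℂ] O) where
  G := oG O M.G
  fn := (tfn hM O).toRingHom
  gr b m x hx := by
    change tfn hM O b x ∈ (oG O M.G).gr m
    induction b using TensorProduct.induction_on with
    | zero => rw [map_zero]; exact zero_mem _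
    | add b b' h h' => rw [map_add]; exact add_mem h h'
    | tmul a o =>
      exact oG_ind (p := fun x => tfn hM O (a ⊗ₜ o) x ∈ (oG O M.G).gr m) hx
        (by rw [map_zero]; exact zero_mem _) (fun o' x h => oG_mem (o * o') (M.gr a m x h))
        fun x y h h' => by rw [map_add]; exact add_mem h h'
  d b x := tfn_ind (p := fun b x => M.G.d.lTensor O (tfn hM O b x) = tfn hM O b (M.G.d.lTensor O x))
    (fun x => by simp only [map_zero, LinearMap.zero_apply]) (fun b => by simp only [map_zero])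
    (fun a o o' x => congrArg ((o * o') ⊗ₜ[ℂ] ·) (M.d a x))
    (fun b b' x h h' => by simp only [map_add, LinearMap.add_apply, h, h'])
    (fun b x x' h h' => by simp only [map_add, h, h']) b x

theorem kap0_fn (hM : Kun.Cs M) (hN : Kun.Cs N) {t : GD.Hom M.G N.G} (ht : Sl (Kun.iL A O) M N t)
    (b : A ⊗[ℂ] O) (x : O ⊗[ℂ] M.G.V) :
    (kap0 hN t).f (tfn hM O b x) = N.fn b ((kap0 hN t).f x) :=
  tfn_ind (p := fun b x => (kap0 hN t).f (tfn hM O b x) = N.fn b ((kap0 hN t).f x))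
    (fun x => by simp only [map_zero, LinearMap.zero_apply]) (fun b => by simp only [map_zero])
    (fun a o o' x => by
      change N.fn (1 ⊗ₜ (o * o')) (t.f (M.fn a x)) = N.fn (a ⊗ₜ o) (N.fn (1 ⊗ₜ o') (t.f x))
      rw [ht a, ← Module.End.mul_apply, ← Module.End.mul_apply, ← map_mul, ← map_mul]
      change N.fn ((1 ⊗ₜ (o * o')) * (a ⊗ₜ 1)) _ = _
      rw [Algebra.TensorProduct.tmul_mul_tmul, Algebra.TensorProduct.tmul_mul_tmul, one_mul,
        mul_one, mul_one])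
    (fun b b' x h h' => by simp only [map_add, LinearMap.add_apply, h, h'])
    (fun b x x' h h' => by simp only [map_add, h, h']) b x

end Kap


end Lev

end

end Vale.Agent.P286EX
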